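import Vale.Agent.P163.Bdl.B1

open MeasureTheory
open scoped RealInnerProductSpace

namespace Vale.Agent.Results.P163.ExponentialDecay

open Vale.Agent.P163

/-- Exponential decay of the spin correlations of the two-dimensional `O(n)` model, for every
`n ≥ 3` and every inverse temperature `β > 0`, uniformly over the infinite-volume states. -/
theorem result (n : ℕ) (hn : 3 ≤ n) (β : ℝ) (hβ : 0 < β) :
    ∃ C m : ℝ, 0 < m ∧ ∀ μ : Measure (ℤ × ℤ → Model.Spin n), Model.IsInfiniteVolumeState n β μ →
      ∀ x y : ℤ × ℤ, ∫ σ, ⟪(σ x : Model.E n), (σ y : Model.E n)⟫ ∂μ ≤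
        C * Real.exp (-m * Model.dist2 x y) := by
  have : NeZero n := ⟨by omega⟩
  exact model_decay (bridge hn hβ fun _ hε => MB_decay hn hβ.le hε)

end Vale.Agent.Results.P163.ExponentialDecay
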